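import Mathlib
import Crest.Prelude.Def_SwitchChain

/-!
# Basic facts on the lazy switch chain

Perfect matchings of a four-set, degree preservation, symmetry and stochasticity of the kernel,
and the Dirichlet identity.
-/

set_option autoImplicit false

namespace Crest.Agent.Switch

open Finset Crest.SwitchChain

variable {n : ℕ}

/-! ### Edges from vertices -/

/-- The edge through two distinct vertices. -/
def ed {n : ℕ} (a b : Fin n) (h : a ≠ b) : Edge n :=
  ⟨s(a, b), by simpa using h⟩

lemma mem_ed {a b v : Fin n} {h : a ≠ b} : v ∈ (ed a b h).1 ↔ v = a ∨ v = b := by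
  simp [ed]

lemma ed_comm {a b : Fin n} (h : a ≠ b) : ed a b h = ed b a h.symm := by
  apply Subtype.ext
  simp [ed, Sym2.eq_swap]

lemma ed_eq_iff {a b c d : Fin n} {h : a ≠ b} {h' : c ≠ d} :
    ed a b h = ed c d h' ↔ (a = c ∧ b = d) ∨ (a = d ∧ b = c) := by
  simp [ed, Subtype.ext_iff]

lemma exists_ed_of_mem {v : Fin n} {e : Edge n} (hv : v ∈ e.1) :
    ∃ (y : Fin n) (h : v ≠ y), e = ed v y h := by
  obtain ⟨e, he⟩ := e
  induction e using Sym2.ind with
  | _ x y =>
    have hxy : x ≠ y := by simpa using he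
    simp only [Sym2.mem_iff] at hv
    rcases hv with rfl | rfl
    · exact ⟨y, hxy, by apply Subtype.ext; simp [ed]⟩
    · exact ⟨x, hxy.symm, by apply Subtype.ext; simp [ed, Sym2.eq_swap]⟩

/-! ### Perfect matchings of a four-set -/

section PM

variable {S : Finset (Fin n)} {F : Finset (Edge n)}

lemma mem_pmSet : F ∈ pmSet S ↔ F.card = 2 ∧ (∀ e ∈ F, ∀ v : Fin n, v ∈ e.1 → v ∈ S) ∧
    ∀ v ∈ S, (F.filter fun e => v ∈ e.1).card = 1 := by
  simp [pmSet, mem_powersetCard]

lemma pm_exists (hF : F ∈ pmSet S) {v : Fin n} (hv : v ∈ S) : ∃ e ∈ F, v ∈ e.1 := by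
  have h := (mem_pmSet.1 hF).2.2 v hv
  obtain ⟨e, he⟩ := Finset.card_pos.1 (by omega : 0 < (F.filter fun e => v ∈ e.1).card)
  rw [mem_filter] at he
  exact ⟨e, he.1, he.2⟩

lemma pm_unique (hF : F ∈ pmSet S) {v : Fin n} (hv : v ∈ S) {e e' : Edge n} (he : e ∈ F)
    (he' : e' ∈ F) (h1 : v ∈ e.1) (h2 : v ∈ e'.1) : e = e' := by
  have h := (mem_pmSet.1 hF).2.2 v hv
  have := Finset.card_le_one.1 (le_of_eq h) e (by simp [he, h1]) e' (by simp [he', h2])
  exact this

lemma pm_edge_mem (hF : F ∈ pmSet S) {e : Edge n} (he : e ∈ F) {v : Fin n} (hv : v ∈ e.1) : v ∈ S :=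
  (mem_pmSet.1 hF).2.1 e he v hv

lemma pm_eq_of_mem {a b c d : Fin n} (hab : a ≠ b) (hac : a ≠ c) (had : a ≠ d) (hbc : b ≠ c)
    (hbd : b ≠ d) (hcd : c ≠ d) (hF : F ∈ pmSet ({a, b, c, d} : Finset (Fin n)))
    (h : ed a b hab ∈ F) : F = {ed a b hab, ed c d hcd} := by
  have hcS : c ∈ ({a, b, c, d} : Finset (Fin n)) := by simp
  obtain ⟨e, he, hce⟩ := pm_exists hF hcS
  obtain ⟨y, hy, rfl⟩ := exists_ed_of_mem hce
  have hyS := pm_edge_mem hF he (v := y) (by simp [mem_ed])
  have hya : y ≠ a := by
    rintro rfl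
    have := pm_unique hF (v := y) (by simp) he h (by simp [mem_ed]) (by simp [mem_ed])
    rw [ed_eq_iff] at this
    rcases this with ⟨h1, _⟩ | ⟨h1, _⟩
    · exact hac h1.symm
    · exact hbc h1.symm
  have hyb : y ≠ b := by
    rintro rfl
    have := pm_unique hF (v := y) (by simp) he h (by simp [mem_ed]) (by simp [mem_ed])
    rw [ed_eq_iff] at this
    rcases this with ⟨h1, _⟩ | ⟨h1, _⟩
    · exact hac h1.symm
    · exact hbc h1.symm
  have hyd : y = d := by
    simp only [mem_insert, mem_singleton] at hyS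
    rcases hyS with h1 | h1 | h1 | h1
    · exact absurd h1 hya
    · exact absurd h1 hyb
    · exact absurd h1.symm hy
    · exact h1
  subst hyd
  have hne : ed a b hab ≠ ed c y hcd := by
    intro h1
    rw [ed_eq_iff] at h1
    rcases h1 with ⟨h1, _⟩ | ⟨h1, _⟩
    · exact hac h1
    · exact had h1
  apply (Finset.eq_of_subset_of_card_le _ _).symm
  · intro x hx
    simp only [mem_insert, mem_singleton] at hx
    rcases hx with rfl | rfl
    · exact h
    · exact he
  · rw [(mem_pmSet.1 hF).1, Finset.card_pair hne]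

/-- The explicit perfect matching. -/
def pmOf {a b c d : Fin n} (hab : a ≠ b) (hcd : c ≠ d) : Finset (Edge n) :=
  {ed a b hab, ed c d hcd}

lemma pmOf_mem {a b c d : Fin n} (hab : a ≠ b) (hac : a ≠ c) (had : a ≠ d) (hbc : b ≠ c)
    (hbd : b ≠ d) (hcd : c ≠ d) : pmOf hab hcd ∈ pmSet ({a, b, c, d} : Finset (Fin n)) := by
  have hne : ed a b hab ≠ ed c d hcd := by
    intro h1
    rw [ed_eq_iff] at h1
    rcases h1 with ⟨h1, _⟩ | ⟨h1, _⟩
    · exact hac h1
    · exact had h1
  rw [mem_pmSet]
  refine ⟨Finset.card_pair hne, ?_, ?_⟩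
  · intro e he v hv
    simp only [pmOf, mem_insert, mem_singleton] at he
    rcases he with rfl | rfl <;> simp only [mem_ed] at hv <;> simp <;> tauto
  · intro v hv
    simp only [mem_insert, mem_singleton] at hv
    have key : ∀ (x : Fin n), (x ∈ (ed a b hab).1 ∧ x ∉ (ed c d hcd).1) →
        (({ed a b hab, ed c d hcd} : Finset (Edge n)).filter fun e => x ∈ e.1) = {ed a b hab} := by
      intro x hx
      ext e
      simp only [mem_filter, mem_insert, mem_singleton]
      constructor
      · rintro ⟨rfl | rfl, h2⟩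
        · rfl
        · exact absurd h2 hx.2
      · rintro rfl
        exact ⟨Or.inl rfl, hx.1⟩
    have key' : ∀ (x : Fin n), (x ∉ (ed a b hab).1 ∧ x ∈ (ed c d hcd).1) →
        (({ed a b hab, ed c d hcd} : Finset (Edge n)).filter fun e => x ∈ e.1) = {ed c d hcd} := by
      intro x hx
      ext e
      simp only [mem_filter, mem_insert, mem_singleton]
      constructor
      · rintro ⟨rfl | rfl, h2⟩
        · exact absurd h2 hx.1
        · rfl
      · rintro rfl
        exact ⟨Or.inr rfl, hx.2⟩
    simp only [pmOf]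
    rcases hv with rfl | rfl | rfl | rfl
    · rw [key] ; · simp
      · simp [mem_ed]; tauto
    · rw [key] ; · simp
      · simp [mem_ed]; tauto
    · rw [key'] ; · simp
      · simp [mem_ed]; tauto
    · rw [key'] ; · simp
      · simp [mem_ed]; tauto

lemma pmSet_four {a b c d : Fin n} (hab : a ≠ b) (hac : a ≠ c) (had : a ≠ d) (hbc : b ≠ c)
    (hbd : b ≠ d) (hcd : c ≠ d) :
    pmSet ({a, b, c, d} : Finset (Fin n)) =
      {pmOf hab hcd, pmOf hac hbd, pmOf had hbc} := by
  have e1 : ({a, c, b, d} : Finset (Fin n)) = {a, b, c, d} := by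
    ext x; simp; tauto
  have e2 : ({a, d, b, c} : Finset (Fin n)) = {a, b, c, d} := by
    ext x; simp; tauto
  ext F
  simp only [mem_insert, mem_singleton]
  constructor
  · intro hF
    obtain ⟨e, he, hae⟩ := pm_exists hF (v := a) (by simp)
    obtain ⟨y, hy, rfl⟩ := exists_ed_of_mem hae
    have hyS := pm_edge_mem hF he (v := y) (by simp [mem_ed])
    simp only [mem_insert, mem_singleton] at hyS
    rcases hyS with h1 | h1 | h1 | h1
    · exact absurd h1.symm hy
    · subst h1
      left
      exact pm_eq_of_mem hab hac had hbc hbd hcd hF he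
    · subst h1
      right; left
      have hF' : F ∈ pmSet ({a, y, b, d} : Finset (Fin n)) := by rwa [e1]
      exact pm_eq_of_mem hac hab had hbc.symm hcd hbd hF' he
    · subst h1
      right; right
      have hF' : F ∈ pmSet ({a, y, b, c} : Finset (Fin n)) := by rwa [e2]
      exact pm_eq_of_mem had hab hac hbd.symm hcd.symm hbc hF' he
  · rintro (rfl | rfl | rfl)
    · exact pmOf_mem hab hac had hbc hbd hcd
    · have := pmOf_mem hac hab had hbc.symm hcd hbd
      rwa [e1] at this
    · have := pmOf_mem had hab hac hbd.symm hcd.symm hbc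
      rwa [e2] at this

lemma card_pmSet (hS : S.card = 4) : (pmSet S).card = 3 := by
  obtain ⟨a, S', ha, rfl, hS'⟩ := Finset.card_eq_succ.1 hS
  obtain ⟨b, c, d, hbc, hbd, hcd, rfl⟩ := Finset.card_eq_three.1 hS'
  simp only [mem_insert, mem_singleton, not_or] at ha
  obtain ⟨hab, hac, had⟩ := ha
  rw [pmSet_four hab hac had hbc hbd hcd]
  have h12 : pmOf hab hcd ≠ pmOf hac hbd := by
    intro h
    have : ed a b hab ∈ pmOf hac hbd := by rw [← h]; simp [pmOf]
    simp only [pmOf, mem_insert, mem_singleton, ed_eq_iff] at this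
    tauto
  have h13 : pmOf hab hcd ≠ pmOf had hbc := by
    intro h
    have : ed a b hab ∈ pmOf had hbc := by rw [← h]; simp [pmOf]
    simp only [pmOf, mem_insert, mem_singleton, ed_eq_iff] at this
    tauto
  have h23 : pmOf hac hbd ≠ pmOf had hbc := by
    intro h
    have : ed a c hac ∈ pmOf had hbc := by rw [← h]; simp [pmOf]
    simp only [pmOf, mem_insert, mem_singleton, ed_eq_iff] at this
    tauto
  rw [Finset.card_insert_of_notMem (by simp [h12, h13]), Finset.card_pair h23]

end PM

/-! ### Switch moves and the kernel -/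

section Kernel

variable {E E' F F' : Finset (Edge n)} {S : Finset (Fin n)}

lemma switchResult_of_valid (h : F ⊆ E ∧ Disjoint F' E) : switchResult E F F' = E \ F ∪ F' := by
  simp [switchResult, h]

lemma switchResult_of_invalid (h : ¬ (F ⊆ E ∧ Disjoint F' E)) : switchResult E F F' = E := by
  simp [switchResult, h]

lemma switchResult_symm (hne : E ≠ E') (h : switchResult E F F' = E') :
    switchResult E' F' F = E := by
  by_cases hv : F ⊆ E ∧ Disjoint F' E
  · rw [switchResult_of_valid hv] at h
    subst h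
    obtain ⟨h1, h2⟩ := hv
    have hFF' : Disjoint F F' := Finset.disjoint_of_subset_left h1 h2.symm
    have v' : F' ⊆ E \ F ∪ F' ∧ Disjoint F (E \ F ∪ F') := by
      refine ⟨subset_union_right, ?_⟩
      rw [Finset.disjoint_union_right]
      exact ⟨Finset.disjoint_sdiff, hFF'⟩
    rw [switchResult_of_valid v']
    ext x
    simp only [mem_union, mem_sdiff]
    have h3 : x ∈ F' → x ∉ E := fun hx hE => (Finset.disjoint_left.1 h2) hx hE
    have h4 : x ∈ F → x ∈ E := fun hx => h1 hx
    tauto
  · rw [switchResult_of_invalid hv] at h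
    exact absurd h hne

lemma deg_switchResult (hF : F ∈ pmSet S) (hF' : F' ∈ pmSet S) (v : Fin n) :
    deg (switchResult E F F') v = deg E v := by
  by_cases hv : F ⊆ E ∧ Disjoint F' E
  · rw [switchResult_of_valid hv]
    obtain ⟨h1, h2⟩ := hv
    have hcount : (F.filter fun e => v ∈ e.1).card = (F'.filter fun e => v ∈ e.1).card := by
      by_cases hvS : v ∈ S
      · rw [(mem_pmSet.1 hF).2.2 v hvS, (mem_pmSet.1 hF').2.2 v hvS]
      · have a1 : (F.filter fun e => v ∈ e.1) = ∅ := by
          apply Finset.filter_eq_empty_iff.2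
          intro e he hve
          exact hvS (pm_edge_mem hF he hve)
        have a2 : (F'.filter fun e => v ∈ e.1) = ∅ := by
          apply Finset.filter_eq_empty_iff.2
          intro e he hve
          exact hvS (pm_edge_mem hF' he hve)
        rw [a1, a2]
    unfold deg
    have h3 : ((E \ F ∪ F').filter fun e => v ∈ e.1) =
        ((E \ F).filter fun e => v ∈ e.1) ∪ (F'.filter fun e => v ∈ e.1) := by
      rw [Finset.filter_union]
    have hd : Disjoint (E \ F) F' :=
      Finset.disjoint_of_subset_left Finset.sdiff_subset h2.symm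
    rw [h3, Finset.card_union_of_disjoint
      (Finset.disjoint_filter_filter hd)]
    have h4 : (E.filter fun e => v ∈ e.1) =
        ((E \ F).filter fun e => v ∈ e.1) ∪ (F.filter fun e => v ∈ e.1) := by
      rw [← Finset.filter_union, Finset.sdiff_union_of_subset h1]
    rw [h4, Finset.card_union_of_disjoint
      (Finset.disjoint_filter_filter Finset.sdiff_disjoint)]
    omega
  · rw [switchResult_of_invalid hv]

/-- Swap the two matchings in a proposal count. -/
lemma proposalCount_symm : proposalCount E E' = proposalCount E' E := by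
  by_cases hne : E = E'
  · rw [hne]
  unfold proposalCount
  apply Finset.sum_congr rfl
  intro S _
  have : ∀ G G' : Finset (Edge n),
      (∑ F ∈ pmSet S, ∑ F' ∈ (pmSet S).erase F, if switchResult G F F' = G' then 1 else 0) =
      ∑ p ∈ ((pmSet S ×ˢ pmSet S).filter fun p => p.1 ≠ p.2),
        if switchResult G p.1 p.2 = G' then 1 else 0 := by
    intro G G'
    rw [Finset.sum_filter, Finset.sum_product]
    apply Finset.sum_congr rfl
    intro F _
    rw [← Finset.filter_ne, Finset.sum_filter]
  rw [this, this]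
  refine Finset.sum_bij' (fun p _ => p.swap) (fun p _ => p.swap) ?_ ?_ ?_ ?_ ?_
  · intro p hp
    simp only [mem_filter, mem_product, Prod.fst_swap, Prod.snd_swap] at hp ⊢
    exact ⟨⟨hp.1.2, hp.1.1⟩, hp.2.symm⟩
  · intro p hp
    simp only [mem_filter, mem_product, Prod.fst_swap, Prod.snd_swap] at hp ⊢
    exact ⟨⟨hp.1.2, hp.1.1⟩, hp.2.symm⟩
  · intro p _; exact Prod.swap_swap p
  · intro p _; exact Prod.swap_swap p
  · intro p _
    simp only [Prod.fst_swap, Prod.snd_swap]
    by_cases h1 : switchResult E p.1 p.2 = E'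
    · have h2 := switchResult_symm hne h1
      simp [h1, h2]
    · have h2 : switchResult E' p.2 p.1 ≠ E := by
        intro h3
        apply h1
        exact switchResult_symm (Ne.symm hne) h3
      simp [h1, h2]

lemma kernel_symm (E E' : Finset (Edge n)) : kernel n E E' = kernel n E' E := by
  unfold kernel
  rw [proposalCount_symm (E := E) (E' := E')]
  by_cases h : E = E'
  · simp [h]
  · simp [h, Ne.symm h]

lemma sum_proposalCount (E : Finset (Edge n)) :
    (∑ E', proposalCount E E') = 6 * n.choose 4 := by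
  unfold proposalCount
  rw [Finset.sum_comm]
  have : ∀ S ∈ (univ : Finset (Fin n)).powersetCard 4,
      (∑ E', ∑ F ∈ pmSet S, ∑ F' ∈ (pmSet S).erase F,
        if switchResult E F F' = E' then 1 else 0) = 6 := by
    intro S hS
    have hS4 : S.card = 4 := (mem_powersetCard.1 hS).2
    rw [Finset.sum_comm]
    have h1 : ∀ F ∈ pmSet S, (∑ E', ∑ F' ∈ (pmSet S).erase F,
        if switchResult E F F' = E' then 1 else 0) = 2 := by
      intro F hF
      rw [Finset.sum_comm]
      have h2 : ∀ F' ∈ (pmSet S).erase F,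
          (∑ E', if switchResult E F F' = E' then 1 else 0) = 1 := by
        intro F' _
        simp
      rw [Finset.sum_congr rfl h2]
      simp [Finset.card_erase_of_mem hF, card_pmSet hS4]
    rw [Finset.sum_congr rfl h1]
    simp [card_pmSet hS4]
  rw [Finset.sum_congr rfl this]
  simp [Finset.card_powersetCard, mul_comm]

lemma choose_pos' (hn : 4 ≤ n) : (0 : ℝ) < (n.choose 4 : ℝ) := by
  exact_mod_cast Nat.choose_pos hn

lemma sum_kernel (hn : 4 ≤ n) (E : Finset (Edge n)) : (∑ E', kernel n E E') = 1 := by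
  have hc := choose_pos' hn
  unfold kernel
  rw [Finset.sum_add_distrib, ← Finset.sum_div]
  have h1 : (∑ E', ((proposalCount E E' : ℕ) : ℝ)) = 6 * (n.choose 4 : ℝ) := by
    exact_mod_cast sum_proposalCount E
  rw [h1]
  simp only [Finset.sum_ite_eq, Finset.mem_univ, if_true]
  field_simp
  norm_num

/-- A proposal from a realization leads to a realization. -/
lemma proposalCount_eq_zero {d : Fin n → ℕ} (hE : E ∈ realizations d) (hE' : E' ∉ realizations d) :
    proposalCount E E' = 0 := by
  unfold proposalCount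
  apply Finset.sum_eq_zero
  intro S _
  apply Finset.sum_eq_zero
  intro F hF
  apply Finset.sum_eq_zero
  intro F' hF'
  have hF'' := Finset.mem_of_mem_erase hF'
  rw [if_neg]
  rintro rfl
  apply hE'
  simp only [realizations, mem_filter, mem_univ, true_and] at hE ⊢
  intro v
  rw [deg_switchResult hF hF'', hE]

lemma kernel_eq_zero {d : Fin n → ℕ} (hE : E ∈ realizations d) (hE' : E' ∉ realizations d) :
    kernel n E E' = 0 := by
  have hne : E ≠ E' := by
    rintro rfl
    exact hE' hE
  simp [kernel, hne, proposalCount_eq_zero hE hE']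

lemma kernel_nonneg (hn : 4 ≤ n) (E E' : Finset (Edge n)) : 0 ≤ kernel n E E' := by
  have hc := choose_pos' hn
  unfold kernel
  apply add_nonneg
  · split_ifs <;> norm_num
  · positivity

/-- The symmetric part used for the laziness argument: `2 P - I`. -/
lemma two_kernel_sub_nonneg (hn : 4 ≤ n) (E E' : Finset (Edge n)) :
    0 ≤ 2 * kernel n E E' - (if E = E' then 1 else 0) := by
  have hc := choose_pos' hn
  unfold kernel
  have : (0 : ℝ) ≤ (proposalCount E E' : ℝ) / (12 * (n.choose 4 : ℝ)) := by positivity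
  split_ifs <;> linarith

lemma sum_kernel_realizations (hn : 4 ≤ n) {d : Fin n → ℕ} (hE : E ∈ realizations d) :
    (∑ E' ∈ realizations d, kernel n E E') = 1 := by
  rw [← sum_kernel hn E]
  apply Finset.sum_subset (Finset.subset_univ _)
  intro x _ hx
  exact kernel_eq_zero hE hx

/-- The Dirichlet identity on the realizations. -/
lemma dirichlet_identity (hn : 4 ≤ n) (d : Fin n → ℕ) (f : Finset (Edge n) → ℝ) :
    (∑ G ∈ realizations d, f G * (f G - ∑ G' ∈ realizations d, kernel n G G' * f G')) =
      (1 / (24 * (n.choose 4 : ℝ))) * ∑ G ∈ realizations d, ∑ G' ∈ realizations d,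
        (proposalCount G G' : ℝ) * (f G - f G') ^ 2 := by
  classical
  set Ω := realizations d with hΩ
  have hc := choose_pos' hn
  set M : ℝ := 12 * (n.choose 4 : ℝ) with hM
  have hMpos : 0 < M := by positivity
  -- proposal counts from a realization sum to M/2 over Ω
  have hsum : ∀ G ∈ Ω, (∑ G' ∈ Ω, (proposalCount G G' : ℝ)) = M / 2 := by
    intro G hG
    have h1 : (∑ E', (proposalCount G E' : ℝ)) = 6 * (n.choose 4 : ℝ) := by
      exact_mod_cast sum_proposalCount G
    have h2 : (∑ E' ∈ Ω, (proposalCount G E' : ℝ)) = ∑ E', (proposalCount G E' : ℝ) := by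
      apply Finset.sum_subset (Finset.subset_univ _)
      intro x _ hx
      simp [proposalCount_eq_zero hG hx]
    rw [h2, h1, hM]; ring
  have hstep : ∀ G ∈ Ω, f G - ∑ G' ∈ Ω, kernel n G G' * f G' =
      (1 / M) * ∑ G' ∈ Ω, (proposalCount G G' : ℝ) * (f G - f G') := by
    intro G hG
    have h1 : (∑ G' ∈ Ω, kernel n G G' * f G') =
        (1 / 2) * f G + (1 / M) * ∑ G' ∈ Ω, (proposalCount G G' : ℝ) * f G' := by
      unfold kernel
      simp only [add_mul, Finset.sum_add_distrib]
      congr 1
      · rw [Finset.sum_eq_single G]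
        · simp
        · intro b _ hb
          simp [Ne.symm hb]
        · intro h; exact absurd hG h
      · rw [Finset.mul_sum]
        apply Finset.sum_congr rfl
        intro x _
        rw [← hM]
        field_simp
    rw [h1]
    have h2 : (∑ G' ∈ Ω, (proposalCount G G' : ℝ) * (f G - f G')) =
        (M / 2) * f G - ∑ G' ∈ Ω, (proposalCount G G' : ℝ) * f G' := by
      simp only [mul_sub, Finset.sum_sub_distrib]
      rw [← hsum G hG, Finset.sum_mul]
    rw [h2]
    field_simp
    ring
  have hL : (∑ G ∈ Ω, f G * (f G - ∑ G' ∈ Ω, kernel n G G' * f G')) =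
      (1 / M) * ∑ G ∈ Ω, ∑ G' ∈ Ω, (proposalCount G G' : ℝ) * (f G * (f G - f G')) := by
    rw [Finset.mul_sum]
    apply Finset.sum_congr rfl
    intro G hG
    rw [hstep G hG, Finset.mul_sum, Finset.mul_sum, Finset.mul_sum]
    apply Finset.sum_congr rfl
    intro x _
    ring
  -- symmetrize
  have hsymm : (∑ G ∈ Ω, ∑ G' ∈ Ω, (proposalCount G G' : ℝ) * (f G * (f G - f G'))) =
      ∑ G ∈ Ω, ∑ G' ∈ Ω, (proposalCount G G' : ℝ) * (f G' * (f G' - f G)) := by
    rw [Finset.sum_comm]
    apply Finset.sum_congr rfl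
    intro G _
    apply Finset.sum_congr rfl
    intro G' _
    rw [proposalCount_symm (E := G') (E' := G)]
  have htot : (∑ G ∈ Ω, ∑ G' ∈ Ω, (proposalCount G G' : ℝ) * (f G - f G') ^ 2) =
      2 * ∑ G ∈ Ω, ∑ G' ∈ Ω, (proposalCount G G' : ℝ) * (f G * (f G - f G')) := by
    have h3 : (∑ G ∈ Ω, ∑ G' ∈ Ω, (proposalCount G G' : ℝ) * (f G - f G') ^ 2) =
        (∑ G ∈ Ω, ∑ G' ∈ Ω, (proposalCount G G' : ℝ) * (f G * (f G - f G'))) +
        ∑ G ∈ Ω, ∑ G' ∈ Ω, (proposalCount G G' : ℝ) * (f G' * (f G' - f G)) := by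
      rw [← Finset.sum_add_distrib]
      apply Finset.sum_congr rfl
      intro G _
      rw [← Finset.sum_add_distrib]
      apply Finset.sum_congr rfl
      intro G' _
      ring
    rw [h3, ← hsymm]
    ring
  rw [hL, htot, hM]
  field_simp
  ring

end Kernel

end Crest.Agent.Switch
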