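import Crest.Agent.Lib.Switch.Basic

/-!
# Mixing of the switch chain from a Poincaré inequality
-/

set_option autoImplicit false

namespace Crest.Agent.Switch

open Finset Crest.SwitchChain

variable {n : ℕ}

lemma kernel_isSymm : (kernel n).IsSymm := by
  ext E E'
  simp [Matrix.transpose_apply, kernel_symm E' E]

lemma pow_symm (t : ℕ) (E E' : Finset (Edge n)) : (kernel n ^ t) E E' = (kernel n ^ t) E' E := by
  have h : (kernel n ^ t).IsSymm := kernel_isSymm.pow t
  have := congrFun (congrFun h E') E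
  simpa [Matrix.transpose_apply] using this

lemma pow_eq_zero {d : Fin n → ℕ} (t : ℕ) {G x : Finset (Edge n)} (hG : G ∈ realizations d)
    (hx : x ∉ realizations d) : (kernel n ^ t) G x = 0 := by
  induction t generalizing x with
  | zero =>
    have : G ≠ x := by
      rintro rfl
      exact hx hG
    simp [Matrix.one_apply, this]
  | succ t ih =>
    rw [pow_succ, Matrix.mul_apply]
    apply Finset.sum_eq_zero
    intro y _
    by_cases hy : y ∈ realizations d
    · rw [kernel_eq_zero hy hx, mul_zero]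
    · rw [ih hy, zero_mul]

section Step

variable {d : Fin n → ℕ}

/-- The one-step average over the realizations. -/
noncomputable def avg (d : Fin n → ℕ) (f : Finset (Edge n) → ℝ) (x : Finset (Edge n)) : ℝ :=
  ∑ y ∈ realizations d, kernel n x y * f y

/-- Laziness: `‖P f‖² ≤ ⟨f, P f⟩`. -/
lemma lazy (hn : 4 ≤ n) (f : Finset (Edge n) → ℝ) :
    (∑ x ∈ realizations d, avg d f x ^ 2) ≤ ∑ x ∈ realizations d, f x * avg d f x := by
  classical
  set Ω := realizations d with hΩ
  let q : Finset (Edge n) → Finset (Edge n) → ℝ := fun x y => 2 * kernel n x y - (if x = y then 1 else 0)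
  have hq0 : ∀ x y, 0 ≤ q x y := fun x y => two_kernel_sub_nonneg hn x y
  have hqs : ∀ x y, q x y = q y x := by
    intro x y
    simp only [q]
    rw [kernel_symm x y]
    by_cases h : x = y
    · simp [h]
    · simp [h, Ne.symm h]
  have hq1 : ∀ x ∈ Ω, (∑ y ∈ Ω, q x y) = 1 := by
    intro x hx
    simp only [q]
    rw [Finset.sum_sub_distrib, ← Finset.mul_sum, sum_kernel_realizations hn hx]
    simp [hx]
    norm_num
  let r : Finset (Edge n) → ℝ := fun x => 2 * avg d f x - f x
  have hr : ∀ x ∈ Ω, r x = ∑ y ∈ Ω, q x y * f y := by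
    intro x hx
    simp only [q, r, avg]
    rw [Finset.mul_sum]
    have : (∑ y ∈ Ω, (2 * kernel n x y - if x = y then (1:ℝ) else 0) * f y) =
        (∑ y ∈ Ω, 2 * (kernel n x y * f y)) - ∑ y ∈ Ω, (if x = y then (1:ℝ) else 0) * f y := by
      rw [← Finset.sum_sub_distrib]
      apply Finset.sum_congr rfl
      intro y _
      ring
    rw [this]
    congr 1
    simp [hx]
  have hrx : ∀ x ∈ Ω, r x ^ 2 ≤ ∑ y ∈ Ω, q x y * f y ^ 2 := by
    intro x hx
    have h0 : 0 ≤ ∑ y ∈ Ω, q x y * (f y - r x) ^ 2 :=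
      Finset.sum_nonneg fun y _ => mul_nonneg (hq0 x y) (sq_nonneg _)
    have h1 : (∑ y ∈ Ω, q x y * (f y - r x) ^ 2) =
        (∑ y ∈ Ω, q x y * f y ^ 2) - 2 * r x * (∑ y ∈ Ω, q x y * f y) +
          r x ^ 2 * ∑ y ∈ Ω, q x y := by
      rw [Finset.mul_sum, Finset.mul_sum, ← Finset.sum_sub_distrib, ← Finset.sum_add_distrib]
      apply Finset.sum_congr rfl
      intro y _
      ring
    rw [h1, hq1 x hx, ← hr x hx] at h0
    nlinarith
  have hsum : (∑ x ∈ Ω, r x ^ 2) ≤ ∑ x ∈ Ω, f x ^ 2 := by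
    calc (∑ x ∈ Ω, r x ^ 2) ≤ ∑ x ∈ Ω, ∑ y ∈ Ω, q x y * f y ^ 2 := Finset.sum_le_sum hrx
      _ = ∑ y ∈ Ω, ∑ x ∈ Ω, q x y * f y ^ 2 := Finset.sum_comm
      _ = ∑ y ∈ Ω, f y ^ 2 := by
        apply Finset.sum_congr rfl
        intro y hy
        rw [← Finset.sum_mul]
        have : (∑ x ∈ Ω, q x y) = 1 := by
          rw [← hq1 y hy]
          apply Finset.sum_congr rfl
          intro x _
          exact hqs x y
        rw [this, one_mul]
  have hexp : (∑ x ∈ Ω, r x ^ 2) =
      4 * (∑ x ∈ Ω, avg d f x ^ 2) - 4 * (∑ x ∈ Ω, f x * avg d f x) + ∑ x ∈ Ω, f x ^ 2 := by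
    rw [Finset.mul_sum, Finset.mul_sum, ← Finset.sum_sub_distrib, ← Finset.sum_add_distrib]
    apply Finset.sum_congr rfl
    intro x _
    simp only [r]
    ring
  rw [hexp] at hsum
  linarith

/-- One step contraction of the variance, from a Poincaré inequality. -/
lemma step_contract (hn : 4 ≤ n) (hd : (realizations d).Nonempty) {C : ℝ} (hC : 0 < C)
    (H : ∀ f : Finset (Edge n) → ℝ,
      ((realizations d).card : ℝ) * (∑ G ∈ realizations d, f G ^ 2) -
        (∑ G ∈ realizations d, f G) ^ 2 ≤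
      C * (realizations d).card * ∑ G ∈ realizations d,
        f G * (f G - ∑ G' ∈ realizations d, kernel n G G' * f G'))
    (f : Finset (Edge n) → ℝ) (hf : (∑ x ∈ realizations d, f x) = 0) :
    (∑ x ∈ realizations d, avg d f x ^ 2) ≤ (1 - 1 / C) * ∑ x ∈ realizations d, f x ^ 2 := by
  have hN : (0 : ℝ) < ((realizations d).card : ℝ) := by
    exact_mod_cast Finset.card_pos.2 hd
  have h1 := H f
  rw [hf] at h1
  have h2 : (∑ x ∈ realizations d, f x ^ 2) ≤ C * ∑ x ∈ realizations d, f x * (f x - avg d f x) := by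
    have : ((realizations d).card : ℝ) * (∑ x ∈ realizations d, f x ^ 2) ≤
        ((realizations d).card : ℝ) * (C * ∑ x ∈ realizations d, f x * (f x - avg d f x)) := by
      have e : C * ((realizations d).card : ℝ) * (∑ G ∈ realizations d,
          f G * (f G - ∑ G' ∈ realizations d, kernel n G G' * f G')) =
          ((realizations d).card : ℝ) * (C * ∑ x ∈ realizations d, f x * (f x - avg d f x)) := by
        simp only [avg]; ring
      nlinarith [h1, e]
    exact le_of_mul_le_mul_left this hN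
  have h3 := lazy (d := d) hn f
  have h4 : (∑ x ∈ realizations d, f x * (f x - avg d f x)) =
      (∑ x ∈ realizations d, f x ^ 2) - ∑ x ∈ realizations d, f x * avg d f x := by
    rw [← Finset.sum_sub_distrib]
    apply Finset.sum_congr rfl
    intro x _
    ring
  rw [h4] at h2
  have h5 : (1 / C) * (∑ x ∈ realizations d, f x ^ 2) ≤
      (∑ x ∈ realizations d, f x ^ 2) - ∑ x ∈ realizations d, f x * avg d f x := by
    rw [one_div, inv_mul_le_iff₀ hC]
    exact h2
  have h6 : (1 - 1 / C) * (∑ x ∈ realizations d, f x ^ 2) =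
      (∑ x ∈ realizations d, f x ^ 2) - (1 / C) * (∑ x ∈ realizations d, f x ^ 2) := by ring
  rw [h6]
  linarith

end Step

section Iterate

variable {d : Fin n → ℕ}

lemma pow_succ_apply {G x : Finset (Edge n)} (hG : G ∈ realizations d) (t : ℕ) :
    (kernel n ^ (t + 1)) G x = ∑ y ∈ realizations d, kernel n x y * (kernel n ^ t) G y := by
  rw [pow_succ, Matrix.mul_apply]
  have : (∑ y, (kernel n ^ t) G y * kernel n y x) =
      ∑ y ∈ realizations d, (kernel n ^ t) G y * kernel n y x := by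
    symm
    apply Finset.sum_subset (Finset.subset_univ _)
    intro y _ hy
    rw [pow_eq_zero t hG hy, zero_mul]
  rw [this]
  apply Finset.sum_congr rfl
  intro y _
  rw [kernel_symm y x]
  ring

lemma sum_pow (hn : 4 ≤ n) {G : Finset (Edge n)} (hG : G ∈ realizations d) (t : ℕ) :
    (∑ x ∈ realizations d, (kernel n ^ t) G x) = 1 := by
  induction t with
  | zero =>
    simp [Matrix.one_apply, hG]
  | succ t ih =>
    have : ∀ x ∈ realizations d, (kernel n ^ (t + 1)) G x =
        ∑ y ∈ realizations d, kernel n x y * (kernel n ^ t) G y := fun x _ => pow_succ_apply hG t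
    rw [Finset.sum_congr rfl this, Finset.sum_comm]
    rw [← ih]
    apply Finset.sum_congr rfl
    intro y hy
    rw [← Finset.sum_mul]
    have h1 : (∑ x ∈ realizations d, kernel n x y) = 1 := by
      rw [← sum_kernel_realizations hn hy]
      apply Finset.sum_congr rfl
      intro x _
      exact kernel_symm x y
    rw [h1, one_mul]

/-- Variance after `t` steps. -/
lemma var_pow_le (hn : 4 ≤ n) (hd : (realizations d).Nonempty) {C : ℝ} (hC : 1 ≤ C)
    (H : ∀ f : Finset (Edge n) → ℝ,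
      ((realizations d).card : ℝ) * (∑ G ∈ realizations d, f G ^ 2) -
        (∑ G ∈ realizations d, f G) ^ 2 ≤
      C * (realizations d).card * ∑ G ∈ realizations d,
        f G * (f G - ∑ G' ∈ realizations d, kernel n G G' * f G'))
    {G : Finset (Edge n)} (hG : G ∈ realizations d) (t : ℕ) :
    (∑ x ∈ realizations d, ((kernel n ^ t) G x - 1 / ((realizations d).card : ℝ)) ^ 2) ≤
      (1 - 1 / C) ^ t := by
  have hN : (0 : ℝ) < ((realizations d).card : ℝ) := by
    exact_mod_cast Finset.card_pos.2 hd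
  set N : ℝ := ((realizations d).card : ℝ) with hNdef
  have hC0 : 0 < C := by linarith
  have hc1 : 0 ≤ 1 - 1 / C := by
    rw [sub_nonneg, div_le_one hC0]
    exact hC
  induction t with
  | zero =>
    simp only [pow_zero]
    have h : ∀ x ∈ realizations d, ((1 : Matrix _ _ ℝ) G x - 1 / N) ^ 2 =
        (1 : Matrix _ _ ℝ) G x ^ 2 - 2 * (1 / N) * (1 : Matrix _ _ ℝ) G x + (1 / N) ^ 2 := by
      intro x _
      ring
    rw [Finset.sum_congr rfl h, Finset.sum_add_distrib, Finset.sum_sub_distrib, ← Finset.mul_sum]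
    have h1 : (∑ x ∈ realizations d, (1 : Matrix _ _ ℝ) G x) = 1 := by
      simp [Matrix.one_apply, hG]
    have h2 : (∑ x ∈ realizations d, (1 : Matrix _ _ ℝ) G x ^ 2) = 1 := by
      simp [Matrix.one_apply, hG, ite_pow]
    rw [h1, h2]
    simp only [Finset.sum_const, nsmul_eq_mul, ← hNdef]
    have : N * (1 / N) ^ 2 = 1 / N := by
      field_simp
    rw [this]
    have : 0 < 1 / N := by positivity
    linarith
  | succ t ih =>
    set f : Finset (Edge n) → ℝ := fun x => (kernel n ^ t) G x - 1 / N with hf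
    have hf0 : (∑ x ∈ realizations d, f x) = 0 := by
      simp only [hf]
      rw [Finset.sum_sub_distrib, sum_pow hn hG t]
      simp only [Finset.sum_const, nsmul_eq_mul, ← hNdef]
      field_simp
      ring
    have hstep := step_contract hn hd hC0 H f hf0
    have havg : ∀ x ∈ realizations d, avg d f x = (kernel n ^ (t + 1)) G x - 1 / N := by
      intro x hx
      rw [pow_succ_apply hG t]
      simp only [avg, hf, mul_sub, Finset.sum_sub_distrib]
      rw [← Finset.sum_mul, sum_kernel_realizations hn hx, one_mul]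
    have e : (∑ x ∈ realizations d, ((kernel n ^ (t + 1)) G x - 1 / N) ^ 2) =
        ∑ x ∈ realizations d, avg d f x ^ 2 := by
      apply Finset.sum_congr rfl
      intro x hx
      rw [havg x hx]
    rw [e, pow_succ']
    exact hstep.trans (mul_le_mul_of_nonneg_left ih hc1)

lemma tv_eq (hd : (realizations d).Nonempty) {G : Finset (Edge n)} (hG : G ∈ realizations d) (t : ℕ) :
    tvDist (fun G' => (kernel n ^ t) G G') (unifOn (realizations d)) =
      (∑ x ∈ realizations d, |(kernel n ^ t) G x - 1 / ((realizations d).card : ℝ)|) / 2 := by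
  unfold tvDist unifOn
  congr 1
  symm
  have : (∑ x ∈ realizations d, |(kernel n ^ t) G x - 1 / ((realizations d).card : ℝ)|) =
      ∑ x ∈ realizations d, |(kernel n ^ t) G x -
        if x ∈ realizations d then 1 / ((realizations d).card : ℝ) else 0| := by
    apply Finset.sum_congr rfl
    intro x hx
    simp [hx]
  rw [this]
  apply Finset.sum_subset (Finset.subset_univ _)
  intro x _ hx
  rw [pow_eq_zero t hG hx]
  simp [hx]

end Iterate

section Numeric

lemma card_graphs_le (n : ℕ) : Fintype.card (Finset (Edge n)) = 2 ^ (n.choose 2) := by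
  rw [Fintype.card_finset, Sym2.card_subtype_not_diag, Fintype.card_fin]

lemma numeric (hn : 4 ≤ n) (d : Fin n → ℕ) :
    ((realizations d).card : ℝ) *
      (1 - 1 / (24 * (n : ℝ) ^ 2 * (n.choose 4 : ℝ))) ^ (2 * n ^ 8) ≤ 1 / 4 := by
  have hnR : (4 : ℝ) ≤ (n : ℝ) := by exact_mod_cast hn
  have hc := choose_pos' hn
  have hcfour : 24 * (n.choose 4 : ℝ) ≤ (n : ℝ) ^ 4 := by
    have h1 : n.descFactorial 4 = Nat.factorial 4 * n.choose 4 := Nat.descFactorial_eq_factorial_mul_choose n 4
    have h2 : n.descFactorial 4 ≤ n ^ 4 := Nat.descFactorial_le_pow n 4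
    have h3 : 24 * n.choose 4 ≤ n ^ 4 := by
      have : Nat.factorial 4 = 24 := rfl
      rw [this] at h1
      omega
    exact_mod_cast h3
  set C : ℝ := 24 * (n : ℝ) ^ 2 * (n.choose 4 : ℝ) with hC
  have hC0 : 0 < C := by positivity
  have hCle : C ≤ (n : ℝ) ^ 6 := by
    have : C = (n : ℝ) ^ 2 * (24 * (n.choose 4 : ℝ)) := by rw [hC]; ring
    rw [this]
    calc (n : ℝ) ^ 2 * (24 * (n.choose 4 : ℝ)) ≤ (n : ℝ) ^ 2 * (n : ℝ) ^ 4 :=
          mul_le_mul_of_nonneg_left hcfour (by positivity)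
      _ = (n : ℝ) ^ 6 := by ring
  have hc1 : (1 : ℝ) ≤ (n.choose 4 : ℝ) := by
    exact_mod_cast Nat.choose_pos hn
  have hCone : 1 ≤ C := by
    have : (1 : ℝ) ≤ (n : ℝ) ^ 2 := by nlinarith
    rw [hC]
    nlinarith
  have h0 : 0 ≤ 1 - 1 / C := by
    rw [sub_nonneg, div_le_one hC0]; exact hCone
  -- exponential bound
  have hexp : (1 - 1 / C) ^ (2 * n ^ 8) ≤ Real.exp (-(2 * (n : ℝ) ^ 2)) := by
    have h1 : 1 - 1 / C ≤ Real.exp (-(1 / C)) := by
      have := Real.add_one_le_exp (-(1 / C))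
      linarith
    calc (1 - 1 / C) ^ (2 * n ^ 8) ≤ Real.exp (-(1 / C)) ^ (2 * n ^ 8) :=
          pow_le_pow_left₀ h0 h1 _
      _ = Real.exp (((2 * n ^ 8 : ℕ) : ℝ) * (-(1 / C))) := by
          rw [← Real.exp_nat_mul]
      _ ≤ Real.exp (-(2 * (n : ℝ) ^ 2)) := by
          apply Real.exp_le_exp.2
          push_cast
          have h2 : 2 * (n : ℝ) ^ 2 * C ≤ 2 * (n : ℝ) ^ 8 := by
            calc 2 * (n : ℝ) ^ 2 * C ≤ 2 * (n : ℝ) ^ 2 * (n : ℝ) ^ 6 :=
                  mul_le_mul_of_nonneg_left hCle (by positivity)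
              _ = 2 * (n : ℝ) ^ 8 := by ring
          have h3 : 2 * (n : ℝ) ^ 2 ≤ 2 * (n : ℝ) ^ 8 / C := by
            rw [le_div_iff₀ hC0]; exact h2
          have h4 : 2 * (n : ℝ) ^ 8 * (-(1 / C)) = -(2 * (n : ℝ) ^ 8 / C) := by
            field_simp
          rw [h4]
          linarith
  -- size bound
  have hcard : ((realizations d).card : ℝ) ≤ Real.exp ((n : ℝ) ^ 2) := by
    have h1 : (realizations d).card ≤ 2 ^ (n.choose 2) := by
      rw [← card_graphs_le n]
      exact Finset.card_le_univ _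
    have h2 : ((realizations d).card : ℝ) ≤ (2 : ℝ) ^ (n.choose 2) := by exact_mod_cast h1
    have h3 : (2 : ℝ) ≤ Real.exp 1 := by
      have := Real.add_one_le_exp (1 : ℝ)
      linarith
    have h4 : (n.choose 2 : ℝ) ≤ (n : ℝ) ^ 2 := by
      have : n.choose 2 ≤ n ^ 2 := Nat.choose_le_pow n 2
      exact_mod_cast this
    calc ((realizations d).card : ℝ) ≤ (2 : ℝ) ^ (n.choose 2) := h2
      _ ≤ Real.exp 1 ^ (n.choose 2) := pow_le_pow_left₀ (by norm_num) h3 _
      _ = Real.exp ((n.choose 2 : ℝ) * 1) := by rw [← Real.exp_nat_mul]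
      _ ≤ Real.exp ((n : ℝ) ^ 2) := by
          apply Real.exp_le_exp.2
          linarith
  have hexp2 : Real.exp (-(2 : ℝ)) ≤ 1 / 4 := by
    have h1 : (2 : ℝ) ≤ Real.exp 1 := by
      have := Real.add_one_le_exp (1 : ℝ)
      linarith
    have h2 : (4 : ℝ) ≤ Real.exp 2 := by
      have : Real.exp 2 = Real.exp 1 * Real.exp 1 := by
        rw [← Real.exp_add]; norm_num
      rw [this]
      nlinarith
    rw [Real.exp_neg, one_div]
    exact inv_anti₀ (by norm_num) h2
  calc ((realizations d).card : ℝ) * (1 - 1 / C) ^ (2 * n ^ 8)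
      ≤ Real.exp ((n : ℝ) ^ 2) * Real.exp (-(2 * (n : ℝ) ^ 2)) :=
        mul_le_mul hcard hexp (pow_nonneg h0 _) (Real.exp_pos _).le
    _ = Real.exp (-(n : ℝ) ^ 2) := by
        rw [← Real.exp_add]; congr 1; ring
    _ ≤ Real.exp (-2) := by
        apply Real.exp_le_exp.2
        nlinarith
    _ ≤ 1 / 4 := hexp2

end Numeric

/-- Poincaré implies the mixing bound. -/
theorem mixing_of_poincare (hn : 4 ≤ n) (d : Fin n → ℕ) (hd : (realizations d).Nonempty)
    (H : ∀ f : Finset (Edge n) → ℝ,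
      ((realizations d).card : ℝ) * (∑ G ∈ realizations d, f G ^ 2) -
        (∑ G ∈ realizations d, f G) ^ 2 ≤
      24 * (n : ℝ) ^ 2 * (n.choose 4 : ℝ) * (realizations d).card * ∑ G ∈ realizations d,
        f G * (f G - ∑ G' ∈ realizations d, kernel n G G' * f G')) :
    ∃ t : ℕ, t ≤ 2 * n ^ 8 ∧ ∀ G ∈ realizations d,
      tvDist (fun G' => (kernel n ^ t) G G') (unifOn (realizations d)) ≤ 1 / 4 := by
  have hc := choose_pos' hn
  have hnR : (4 : ℝ) ≤ (n : ℝ) := by exact_mod_cast hn
  have hc1 : (1 : ℝ) ≤ (n.choose 4 : ℝ) := by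
    exact_mod_cast Nat.choose_pos hn
  have hCone : 1 ≤ 24 * (n : ℝ) ^ 2 * (n.choose 4 : ℝ) := by
    have : (1 : ℝ) ≤ (n : ℝ) ^ 2 := by nlinarith
    nlinarith
  refine ⟨2 * n ^ 8, le_rfl, ?_⟩
  intro G hG
  rw [tv_eq hd hG]
  set N : ℝ := ((realizations d).card : ℝ) with hN
  have hV := var_pow_le hn hd hCone H hG (2 * n ^ 8)
  have hCS := sq_sum_le_card_mul_sum_sq (s := realizations d)
    (f := fun x => |(kernel n ^ (2 * n ^ 8)) G x - 1 / N|)
  simp only [sq_abs] at hCS
  have hnum := numeric hn d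
  have hN0 : (0 : ℝ) ≤ N := by positivity
  have hS : (∑ x ∈ realizations d, |(kernel n ^ (2 * n ^ 8)) G x - 1 / N|) ^ 2 ≤ 1 / 4 := by
    calc _ ≤ N * ∑ x ∈ realizations d, ((kernel n ^ (2 * n ^ 8)) G x - 1 / N) ^ 2 := hCS
      _ ≤ N * (1 - 1 / (24 * (n : ℝ) ^ 2 * (n.choose 4 : ℝ))) ^ (2 * n ^ 8) :=
        mul_le_mul_of_nonneg_left hV hN0
      _ ≤ 1 / 4 := hnum
  have hS0 : 0 ≤ ∑ x ∈ realizations d, |(kernel n ^ (2 * n ^ 8)) G x - 1 / N| :=
    Finset.sum_nonneg fun x _ => abs_nonneg _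
  have : (∑ x ∈ realizations d, |(kernel n ^ (2 * n ^ 8)) G x - 1 / N|) ≤ 1 / 2 := by
    by_contra h
    push_neg at h
    nlinarith
  linarith

/-- The statement reduced to the pure Poincaré inequality for ordered proposals. -/
theorem poincare_of_core (hn : 4 ≤ n) (d : Fin n → ℕ)
    (f : Finset (Edge n) → ℝ)
    (core : ((realizations d).card : ℝ) * (∑ G ∈ realizations d, f G ^ 2) -
        (∑ G ∈ realizations d, f G) ^ 2 ≤
      (n : ℝ) ^ 2 * (realizations d).card * ∑ G ∈ realizations d, ∑ G' ∈ realizations d,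
        (proposalCount G G' : ℝ) * (f G - f G') ^ 2) :
    ((realizations d).card : ℝ) * (∑ G ∈ realizations d, f G ^ 2) -
        (∑ G ∈ realizations d, f G) ^ 2 ≤
      24 * (n : ℝ) ^ 2 * (n.choose 4 : ℝ) * (realizations d).card * ∑ G ∈ realizations d,
        f G * (f G - ∑ G' ∈ realizations d, kernel n G G' * f G') := by
  have hc := choose_pos' hn
  rw [dirichlet_identity hn d f]
  have : 24 * (n : ℝ) ^ 2 * (n.choose 4 : ℝ) * (realizations d).card *
      ((1 / (24 * (n.choose 4 : ℝ))) * ∑ G ∈ realizations d, ∑ G' ∈ realizations d,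
        (proposalCount G G' : ℝ) * (f G - f G') ^ 2) =
      (n : ℝ) ^ 2 * (realizations d).card * ∑ G ∈ realizations d, ∑ G' ∈ realizations d,
        (proposalCount G G' : ℝ) * (f G - f G') ^ 2 := by
    field_simp
  rw [this]
  exact core

end Crest.Agent.Switch
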